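import Vale.Agent.P201.Fox

/-!
P201: descent along the suffix trees of a free kernel.
-/

noncomputable section

namespace Vale.Agent.P201

open MonoidAlgebra

variable {K : Type*} [CommRing K] {X : Type*}
  {G Q : Type*} [Group G] [Group Q]

/-- A homomorphism with a section and a free basis of its kernel. -/
structure KerBasis (π : G →* Q) (X : Type*) where
  /-- The free kernel. -/
  φ : FreeGroup X →* G
  /-- Chosen preimages. -/
  s : Q → G
  /-- The chosen element is a preimage. -/
  map_s : ∀ q, π (s q) = q
  /-- The inclusion is injective. -/
  inj : Function.Injective φ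
  /-- The image is the kernel. -/
  range_eq : φ.range = π.ker

variable {π : G →* Q} (B : KerBasis π X)

theorem KerBasis.exists_part (g : G) : ∃ n, B.φ n = g * (B.s (π g))⁻¹ :=
  MonoidHom.mem_range.1 (by rw [B.range_eq, MonoidHom.mem_ker]; simp [B.map_s])

/-- The kernel part of an element. -/
def part (g : G) : FreeGroup X := (B.exists_part g).choose

theorem part_spec (g : G) : B.φ (part B g) * B.s (π g) = g := by
  rw [part, (B.exists_part g).choose_spec, inv_mul_cancel_right]

theorem map_phi (n : FreeGroup X) : π (B.φ n) = 1 :=
  MonoidHom.mem_ker.1 (B.range_eq ▸ MonoidHom.mem_range.2 ⟨n, rfl⟩)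

theorem map_phi_mul (n : FreeGroup X) (q : Q) : π (B.φ n * B.s q) = q := by
  rw [map_mul, map_phi B, one_mul, B.map_s]

theorem part_phi_mul (n : FreeGroup X) (q : Q) : part B (B.φ n * B.s q) = n := by
  apply B.inj
  have h := part_spec B (B.φ n * B.s q)
  rw [map_phi_mul] at h
  exact mul_right_cancel h

variable [DecidableEq X]

/-- The derivative of a group element relative to the kernel. -/
def derG (x : X) (g : G) : MonoidAlgebra K G :=
  mapDomainRingHom K B.φ (der K x (part B g)) * single (B.s (π g)) 1

/-- The derivative on the group algebra. -/
def derA (x : X) : MonoidAlgebra K G →+ MonoidAlgebra K G where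
  toFun a := a.coeff.sum fun g c => single 1 c * derG B x g
  map_zero' := by simp
  map_add' a b := by
    rw [coeff_add]
    exact Finsupp.sum_add_index' (by simp) fun g c d => by simp [single_add, add_mul]

theorem derA_single (x : X) (g : G) (c : K) :
    derA B x (single g c) = single 1 c * derG B x g := by
  change (single g c).coeff.sum (fun g c => single 1 c * derG B x g) = _
  rw [coeff_single, Finsupp.sum_single_index (by simp)]

theorem derG_mul (x : X) (g h : G) :
    derG (K := K) B x (g * h) = derG B x g * single h 1 + derG B x (B.s (π g) * h) := by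
  have hq : π (B.s (π g) * h) = π (g * h) := by simp [B.map_s]
  have hn : part B (g * h) = part B g * part B (B.s (π g) * h) := by
    apply B.inj
    have h1 := part_spec B (g * h)
    have h2 := part_spec B (B.s (π g) * h)
    rw [hq] at h2
    apply mul_right_cancel (b := B.s (π (g * h)))
    rw [h1, map_mul, mul_assoc, h2, ← mul_assoc, part_spec]
  simp only [derG, hq, hn, der_mul, map_add, map_mul, add_mul, mul_assoc,
    mapDomainRingHom_apply, mapDomain_single, single_mul_single, mul_one]
  have h2 := part_spec B (B.s (π g) * h)
  rw [hq, map_mul π] at h2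
  rw [h2]

/-- The image in the quotient, lifted by the section. -/
def liftQ (a : MonoidAlgebra K G) : MonoidAlgebra K G :=
  mapDomain B.s (mapDomainRingHom K π a)

theorem derA_mul (x : X) (a b : MonoidAlgebra K G) :
    derA B x (a * b) = derA B x a * b + derA B x (liftQ B a * b) := by
  induction a using MonoidAlgebra.induction_linear with
  | zero => simp [liftQ]
  | add a a' ha ha' =>
    simp only [liftQ, map_add, mapDomain_add, add_mul] at ha ha' ⊢
    rw [ha, ha']; abel
  | single g c =>
    induction b using MonoidAlgebra.induction_linear with
    | zero => simp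
    | add b b' hb hb' => simp only [mul_add, map_add, hb, hb']; abel
    | single h d =>
      simp only [liftQ, mapDomainRingHom_apply, mapDomain_single, single_mul_single, derA_single,
        derG_mul B x g h, mul_add]
      congr 1
      rw [mul_assoc, show (single h d : MonoidAlgebra K G) = single h 1 * single 1 d by
        simp [single_mul_single], ← mul_assoc (derG B x g), ← mul_assoc (single 1 c),
        ← mul_assoc (single 1 c)]
      rw [show (single 1 (c * d) : MonoidAlgebra K G) = single 1 c * single 1 d by
        simp [single_mul_single], mul_assoc (single 1 c) (single 1 d)]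
      rw [mul_assoc (single 1 c), ← (single_commute (fun x => Commute.one_left x)
        (fun y => Commute.all d y) _).eq]
      simp only [← mul_assoc, single_mul_single, mul_one, mul_comm c d]

/-- The suffix closure of a support, coset by coset. -/
def tree (a : MonoidAlgebra K G) : Finset G := by
  classical
  exact a.coeff.support.biUnion fun g => (suf (part B g)).image fun m => B.φ m * B.s (π g)

theorem mem_tree {a : MonoidAlgebra K G} {h : G} : h ∈ tree B a ↔
    ∃ g ∈ a.coeff.support, π h = π g ∧ (part B h).toWord <:+ (part B g).toWord := by
  classical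
  simp only [tree, Finset.mem_biUnion, Finset.mem_image, mem_suf]
  constructor
  · rintro ⟨g, hg, m, hm, rfl⟩
    exact ⟨g, hg, map_phi_mul B m _, by rwa [part_phi_mul]⟩
  · rintro ⟨g, hg, hq, hm⟩
    exact ⟨g, hg, part B h, hm, by rw [← hq, part_spec]⟩

theorem derA_eq_sum (x : X) (a : MonoidAlgebra K G) :
    derA B x a = ∑ g ∈ a.coeff.support, single 1 (a.coeff g) * derG B x g := rfl

theorem coeff_derG_phi_mul [DecidableEq Q] (x : X) (g : G) (n : FreeGroup X) (q : Q) :
    (derG (K := K) B x g).coeff (B.φ n * B.s q) =
      if π g = q then (der K x (part B g)).coeff n else 0 := by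
  classical
  rw [derG]
  generalize part B g = p
  induction der K x p using MonoidAlgebra.induction_linear with
  | zero => simp
  | add a b ha hb =>
    simp only [map_add, add_mul, coeff_add, Finsupp.add_apply, ha, hb]
    split <;> simp
  | single m c =>
    simp only [mapDomainRingHom_apply, mapDomain_single, single_mul_single, mul_one, coeff_single,
      Finsupp.single_apply]
    by_cases h : π g = q
    · subst h
      rw [if_pos rfl]
      simp only [mul_left_inj, B.inj.eq_iff]
    · rw [if_neg h, if_neg]
      intro he
      have := congrArg π he
      rw [map_phi_mul, map_phi_mul] at this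
      exact h this

theorem coeff_single_one_mul' (a : K) (b : MonoidAlgebra K G) (g : G) :
    (single 1 a * b).coeff g = a * b.coeff g := by
  rw [coeff_single_one_mul]

/-- An element killed in the quotient has a nonzero derivative with a smaller tree. -/
theorem exists_smaller [Nontrivial K] (a : MonoidAlgebra K G) (ha : a ≠ 0)
    (hπ : mapDomainRingHom K π a = 0) :
    ∃ (x : X) (u : G), derA B x a ≠ 0 ∧ π u = 1 ∧
      (tree B (single u 1 * derA B x a)).card < (tree B a).card := by
  classical
  obtain ⟨g, hg, hmax⟩ := a.coeff.support.exists_max_image (fun g => (part B g).toWord.length)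
    (Finsupp.support_nonempty_iff.2 fun h => ha (MonoidAlgebra.ext h))
  cases hw : (part B g).toWord with
  | nil =>
    exfalso
    have key : ∀ h ∈ a.coeff.support, B.s (π h) = h := fun h hh => by
      have h0 := hmax h hh
      rw [hw, List.length_nil, Nat.le_zero, List.length_eq_zero_iff, FreeGroup.toWord_eq_nil_iff] at h0
      have := part_spec B h
      rwa [h0, map_one, one_mul] at this
    have : (mapDomainRingHom K π a).coeff (π g) = a.coeff g := by
      rw [mapDomainRingHom_apply, coeff_mapDomain, Finsupp.mapDomain, Finsupp.sum_apply, Finsupp.sum,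
        Finset.sum_eq_single g]
      · simp
      · intro h hh hne
        rw [Finsupp.single_apply, if_neg]
        intro he
        exact hne (by rw [← key h hh, he, key g hg])
      · exact fun h => absurd hg h
    rw [hπ] at this
    exact Finsupp.mem_support_iff.1 hg (by simpa using this.symm)
  | cons l w =>
    have hr : FreeGroup.IsReduced (l :: w) := hw ▸ FreeGroup.isReduced_toWord
    let e : G := B.φ (tip l w) * B.s (π g)
    let u : G := if l.2 then 1 else B.φ (FreeGroup.of l.1)
    refine ⟨l.1, u, ?_, by simp only [u]; split <;> simp [map_phi B], ?_⟩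
    · intro h0
      have hc := congrArg (fun b : MonoidAlgebra K G => b.coeff e) h0
      simp only [derA_eq_sum, coeff_sum, Finsupp.finsetSum_apply, coeff_single_one_mul', e,
        coeff_derG_phi_mul, coeff_zero, Finsupp.zero_apply] at hc
      rw [Finset.sum_eq_single g] at hc
      · rw [if_pos rfl, ← FreeGroup.mk_toWord (x := part B g), hw, der_tip_self K hr] at hc
        exact Finsupp.mem_support_iff.1 hg (by split at hc <;> simpa using hc)
      · intro h hh hne
        split
        · next hq =>
          rw [mul_eq_zero_of_right]
          by_contra hne0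
          refine not_onPath_tip hr (W := (part B h).toWord) (hw ▸ hmax h hh) (fun he => hne ?_)
            (onPath_der K l.1 _ _ hne0)
          have : part B h = part B g := FreeGroup.toWord_injective (he.trans hw.symm)
          rw [← part_spec B h, ← part_spec B g, this, hq]
        · simp
      · exact fun h => absurd hg h
    · refine Finset.card_lt_card (lt_of_le_of_lt (b := (tree B a).erase g) ?_
        (Finset.erase_ssubset ((mem_tree B).2 ⟨g, hg, rfl, List.suffix_rfl⟩)))
      intro t ht
      obtain ⟨v, hv, htv, hts⟩ := (mem_tree B).1 ht
      have hv0 : (derA B l.1 a).coeff (u⁻¹ * v) ≠ 0 := by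
        have := Finsupp.mem_support_iff.1 hv
        rwa [coeff_single_mul_apply, one_mul] at this
      rw [derA_eq_sum, coeff_sum, Finsupp.finsetSum_apply] at hv0
      obtain ⟨f, hf, hf0⟩ := Finset.exists_ne_zero_of_sum_ne_zero hv0
      rw [coeff_single_one_mul'] at hf0
      have hd := right_ne_zero_of_mul hf0
      rw [← part_spec B (u⁻¹ * v), coeff_derG_phi_mul] at hd
      obtain ⟨hq, hm⟩ : π f = π (u⁻¹ * v) ∧
          (der K l.1 (part B f)).coeff (part B (u⁻¹ * v)) ≠ 0 := by
        split at hd
        · next h => exact ⟨h, hd⟩
        · exact absurd rfl hd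
      have hp := shift_spec (hw ▸ hmax f hf) (onPath_der K l.1 _ _ hm)
      have hv' : v = B.φ (shift l (part B (u⁻¹ * v))) * B.s (π f) := by
        have h1 := part_spec B (u⁻¹ * v)
        rw [← hq] at h1
        simp only [shift, u]
        cases hl : l.2
        · simp only [u, hl, Bool.false_eq_true, if_false] at h1 ⊢
          rw [map_mul, mul_assoc, h1, mul_inv_cancel_left]
        · simp only [u, hl, if_true] at h1 ⊢
          rw [h1, inv_one, one_mul]
      have hqv : π v = π f := by rw [hv', map_phi_mul]
      have hpv : part B v = shift l (part B (u⁻¹ * v)) := by rw [hv', part_phi_mul, ← hv']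
      rw [← hpv] at hp
      refine Finset.mem_erase.2 ⟨fun he => hp.2 ?_,
        (mem_tree B).2 ⟨f, hf, htv.trans hqv, hts.trans hp.1⟩⟩
      subst he
      rw [← hw]
      refine (hts.eq_of_length_le ?_).symm
      exact hp.1.length_le.trans (hmax f hf)

/-- The inversion anti-automorphism. -/
def inv' : MonoidAlgebra K G →+ MonoidAlgebra K G where
  toFun a := mapDomain (fun g => g⁻¹) a
  map_zero' := by simp
  map_add' a b := by simp [mapDomain_add]

theorem inv'_single (g : G) (c : K) : inv' (single g c) = single g⁻¹ c := by simp [inv']

theorem inv'_mul (a b : MonoidAlgebra K G) : inv' (a * b) = inv' b * inv' a := by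
  induction a using MonoidAlgebra.induction_linear with
  | zero => simp
  | add a a' ha ha' => simp only [add_mul, map_add, mul_add, ha, ha']
  | single g c =>
    induction b using MonoidAlgebra.induction_linear with
    | zero => simp
    | add b b' hb hb' => simp only [add_mul, map_add, mul_add, hb, hb']
    | single h d => simp [single_mul_single, inv'_single, mul_comm c d]

theorem inv'_inv' (a : MonoidAlgebra K G) : inv' (inv' a) = a := by
  induction a using MonoidAlgebra.induction_linear with
  | zero => simp
  | add a a' ha ha' => simp [ha, ha']
  | single g c => simp [inv'_single]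

theorem map_inv' (a : MonoidAlgebra K G) :
    mapDomainRingHom K π (inv' a) = inv' (mapDomainRingHom K π a) := by
  induction a using MonoidAlgebra.induction_linear with
  | zero => simp
  | add a a' ha ha' => simp only [map_add, ha, ha']
  | single g c => simp [inv'_single]

include B in
theorem noZeroDivisors_of_kerBasis [Nontrivial K] [NoZeroDivisors (MonoidAlgebra K Q)] :
    NoZeroDivisors (MonoidAlgebra K G) := by
  suffices main : ∀ (N : ℕ) (a b : MonoidAlgebra K G),
      (tree B a).card + (tree B (inv' b)).card ≤ N → a * b = 0 →
        mapDomainRingHom K π a = 0 → a = 0 ∨ b = 0 by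
    have hinv : ∀ c : MonoidAlgebra K G, inv' c = 0 → c = 0 := fun c hc => by
      rw [← inv'_inv' c, hc, map_zero]
    refine ⟨fun {a b} hab => ?_⟩
    have h : mapDomainRingHom K π a * mapDomainRingHom K π b = 0 := by
      rw [← map_mul, hab, map_zero]
    rcases mul_eq_zero.1 h with h | h
    · exact main _ a b le_rfl hab h
    · rcases main _ (inv' b) (inv' a) le_rfl (by rw [← inv'_mul, hab, map_zero])
        (by rw [map_inv', h, map_zero]) with h' | h'
      · exact Or.inr (hinv b h')
      · exact Or.inl (hinv a h')
  intro N
  induction N using Nat.strong_induction_on with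
  | _ N ih =>
  intro a b hN hab hπ
  by_cases ha : a = 0
  · exact Or.inl ha
  refine Or.inr ?_
  obtain ⟨x, u, hx, -, hcard⟩ := exists_smaller B a ha hπ
  have h1 : derA B x a * b = 0 := by
    have := derA_mul B x a b
    rw [hab, map_zero, liftQ, hπ, mapDomain_zero, zero_mul, map_zero, add_zero] at this
    exact this.symm
  let a' := single u (1 : K) * derA B x a
  have hab' : a' * b = 0 := by simp only [a']; rw [mul_assoc, h1, mul_zero]
  have ha' : a' ≠ 0 := fun h => hx (by
    have h2 := congrArg (fun c => single u⁻¹ (1 : K) * c) h
    simpa [a', ← mul_assoc, single_mul_single, ← one_def] using h2)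
  have hlt : (tree B a').card + (tree B (inv' b)).card < N := by simp only [a']; omega
  rcases mul_eq_zero.1 (show mapDomainRingHom K π a' * mapDomainRingHom K π b = 0 by
    rw [← map_mul, hab', map_zero]) with h | h
  · exact ((ih _ hlt a' b le_rfl hab' h).resolve_left ha')
  · rcases ih _ hlt (inv' b) (inv' a') (by rw [inv'_inv', add_comm])
      (by rw [← inv'_mul, hab', map_zero]) (by rw [map_inv', h, map_zero]) with h' | h'
    · rw [← inv'_inv' b, h', map_zero]
    · exact absurd (by rw [← inv'_inv' a', h', map_zero]) ha'

end Vale.Agent.P201
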