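import Mathlib

/-!
P201: right Fox derivatives of reduced words and the position of their supports.
-/

noncomputable section

namespace Vale.Agent.P201

open MonoidAlgebra

variable (K : Type*) [CommRing K] {X : Type*} [DecidableEq X]

/-- The affine permutation attached to a generator. -/
def genPerm (x y : X) : Equiv.Perm (MonoidAlgebra K (FreeGroup X)) where
  toFun r := (r - if y = x then 1 else 0) * single (FreeGroup.of y)⁻¹ 1
  invFun r := r * single (FreeGroup.of y) 1 + if y = x then 1 else 0
  left_inv r := by
    simp only [mul_assoc, single_mul_single, inv_mul_cancel, mul_one, ← one_def, sub_add_cancel]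
  right_inv r := by
    simp only [add_sub_cancel_right, mul_assoc, single_mul_single, mul_inv_cancel, mul_one, ← one_def]

/-- The affine action whose translation part is the derivative. -/
def foxPerm (x : X) : FreeGroup X →* Equiv.Perm (MonoidAlgebra K (FreeGroup X)) :=
  FreeGroup.lift (genPerm K x)

theorem foxPerm_affine (x : X) (g : FreeGroup X) : ∀ r : MonoidAlgebra K (FreeGroup X),
    foxPerm K x g r = r * single g⁻¹ 1 + foxPerm K x g 0 := by
  induction g using FreeGroup.induction_on with
  | C1 => intro r; simp [← one_def]
  | of y => intro r; simp only [foxPerm, genPerm, FreeGroup.lift_apply_of, Equiv.coe_fn_mk, sub_eq_add_neg, add_mul, zero_add, zero_mul]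
  | inv_of y _ => intro r; simp [foxPerm, genPerm, Equiv.Perm.inv_def]
  | mul g h hg hh =>
    intro r
    simp only [map_mul, Equiv.Perm.mul_apply]
    rw [hg (foxPerm K x h r), hh r, hg (foxPerm K x h 0)]
    simp [add_mul, mul_assoc, single_mul_single, add_assoc]

/-- The right Fox derivative. -/
def der (x : X) (g : FreeGroup X) : MonoidAlgebra K (FreeGroup X) := foxPerm K x g⁻¹ 0

theorem der_mul (x : X) (g h : FreeGroup X) :
    der K x (g * h) = der K x g * single h 1 + der K x h := by
  simp only [der, mul_inv_rev, map_mul, Equiv.Perm.mul_apply]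
  rw [foxPerm_affine, inv_inv]

theorem der_one (x : X) : der K x 1 = 0 := by simp [der]

theorem der_of (x y : X) : der K x (FreeGroup.of y) = if y = x then 1 else 0 := by
  simp [der, foxPerm, genPerm, Equiv.Perm.inv_def]

theorem der_inv_of (x y : X) :
    der K x (FreeGroup.of y)⁻¹ = if y = x then -single (FreeGroup.of y)⁻¹ 1 else 0 := by
  simp only [der, inv_inv, foxPerm, FreeGroup.lift_apply_of, genPerm, Equiv.coe_fn_mk, zero_sub]
  split <;> simp

omit [DecidableEq X] in
theorem isReduced_suffix {L L' : List (X × Bool)} (h : FreeGroup.IsReduced L) (h' : L' <:+ L) :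
    FreeGroup.IsReduced L' := List.IsChain.suffix h h'

/-- Initial endpoints of the edges with a given label on the path of a word. -/
def OnPath (x : X) (W : List (X × Bool)) (m : FreeGroup X) : Prop :=
  (x, true) :: m.toWord <:+ W ∨ ∃ s, m.toWord = (x, false) :: s ∧ m.toWord <:+ W

theorem toWord_mk_of_isReduced {L : List (X × Bool)} (h : FreeGroup.IsReduced L) :
    (FreeGroup.mk L).toWord = L := by
  rw [FreeGroup.toWord_mk, (h.red_iff_eq).1 FreeGroup.reduce.red]

theorem der_mk_cons (x : X) (l : X × Bool) (L : List (X × Bool)) :
    der K x (FreeGroup.mk (l :: L)) =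
      (if l.1 = x then (if l.2 then single (FreeGroup.mk L) 1
        else -single (FreeGroup.mk (l :: L)) 1) else 0) + der K x (FreeGroup.mk L) := by
  obtain ⟨y, b⟩ := l
  have hmul : FreeGroup.mk ((y, b) :: L) = FreeGroup.mk [(y, b)] * FreeGroup.mk L :=
    (FreeGroup.mul_mk (L₁ := [(y, b)]) (L₂ := L)).symm
  rw [hmul, der_mul]
  congr 1
  cases b
  · have h : FreeGroup.mk [(y, false)] = (FreeGroup.of y)⁻¹ := rfl
    rw [h, der_inv_of]
    split <;> simp_all [single_mul_single]
  · have h : FreeGroup.mk [(y, true)] = FreeGroup.of y := rfl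
    rw [h, der_of]
    split <;> simp_all

theorem onPath_of_coeff_ne_zero (x : X) : ∀ (L : List (X × Bool)), FreeGroup.IsReduced L →
    ∀ m, (der K x (FreeGroup.mk L)).coeff m ≠ 0 → OnPath x L m := by
  intro L
  induction L with
  | nil => intro _ m hm; simp [← FreeGroup.one_eq_mk, der_one] at hm
  | cons l L ih =>
    intro hL m hm
    have hL' : FreeGroup.IsReduced L := isReduced_suffix hL (List.suffix_cons l L)
    by_cases h : (der K x (FreeGroup.mk L)).coeff m = 0
    · obtain ⟨y, b⟩ := l
      rw [der_mk_cons, coeff_add, Finsupp.add_apply, h, add_zero] at hm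
      dsimp only at hm
      split at hm
      · next hy =>
        subst hy
        cases b
        · simp only [Bool.false_eq_true, if_false, coeff_neg, Finsupp.neg_apply, coeff_single,
            Finsupp.single_apply] at hm
          by_cases he : FreeGroup.mk ((y, false) :: L) = m
          · subst he
            exact Or.inr ⟨L, toWord_mk_of_isReduced hL, by rw [toWord_mk_of_isReduced hL]⟩
          · simp [he] at hm
        · simp only [if_true, coeff_single, Finsupp.single_apply] at hm
          by_cases he : FreeGroup.mk L = m
          · subst he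
            exact Or.inl (by rw [toWord_mk_of_isReduced hL'])
          · simp [he] at hm
      · simp at hm
    · rcases ih hL' m h with h1 | ⟨s, hs, h2⟩
      · exact Or.inl (h1.trans (List.suffix_cons l L))
      · exact Or.inr ⟨s, hs, h2.trans (List.suffix_cons l L)⟩

theorem onPath_der (x : X) (n m : FreeGroup X) (hm : (der K x n).coeff m ≠ 0) :
    OnPath x n.toWord m :=
  onPath_of_coeff_ne_zero K x n.toWord FreeGroup.isReduced_toWord m
    (by rwa [FreeGroup.mk_toWord])

/-- The endpoint at which the first letter of a longest word is seen. -/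
def tip (l : X × Bool) (w : List (X × Bool)) : FreeGroup X :=
  if l.2 then FreeGroup.mk w else FreeGroup.mk (l :: w)

theorem not_onPath_tip {l : X × Bool} {w W : List (X × Bool)}
    (hr : FreeGroup.IsReduced (l :: w)) (hlen : W.length ≤ (l :: w).length)
    (hne : W ≠ l :: w) : ¬ OnPath l.1 W (tip l w) := by
  obtain ⟨x, b⟩ := l
  have hw : FreeGroup.IsReduced w := isReduced_suffix hr (List.suffix_cons _ w)
  cases b
  · simp only [tip, Bool.false_eq_true, if_false, OnPath, toWord_mk_of_isReduced hr]
    rintro (h | ⟨s, -, h⟩)
    · have := h.length_le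
      simp only [List.length_cons] at this hlen
      omega
    · exact hne (h.eq_of_length_le hlen).symm
  · simp only [tip, if_true, OnPath, toWord_mk_of_isReduced hw]
    rintro (h | ⟨s, hs, -⟩)
    · exact hne (h.eq_of_length_le hlen).symm
    · subst hs
      simp [FreeGroup.isReduced_cons_cons] at hr

theorem der_tip_self {l : X × Bool} {w : List (X × Bool)} (hr : FreeGroup.IsReduced (l :: w)) :
    (der K l.1 (FreeGroup.mk (l :: w))).coeff (tip l w) = if l.2 then 1 else -1 := by
  have h0 : (der K l.1 (FreeGroup.mk w)).coeff (tip l w) = 0 := by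
    by_contra h
    refine not_onPath_tip hr (W := w) (by simp) (fun h' => ?_)
      (onPath_of_coeff_ne_zero K l.1 w (isReduced_suffix hr (List.suffix_cons _ w)) _ h)
    simpa using congrArg List.length h'
  rw [der_mk_cons, coeff_add, Finsupp.add_apply, h0, add_zero, if_pos rfl]
  cases hb : l.2 <;> simp [tip, hb]

/-- The moved endpoint: initial for a positive first letter, terminal for a negative one. -/
def shift (l : X × Bool) (m : FreeGroup X) : FreeGroup X :=
  if l.2 then m else FreeGroup.of l.1 * m

theorem shift_spec {l : X × Bool} {w : List (X × Bool)} {n m : FreeGroup X}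
    (hlen : n.toWord.length ≤ (l :: w).length) (hm : OnPath l.1 n.toWord m) :
    (shift l m).toWord <:+ n.toWord ∧ (shift l m).toWord ≠ l :: w := by
  obtain ⟨x, b⟩ := l
  cases b
  · simp only [shift, Bool.false_eq_true, if_false]
    rcases hm with h | ⟨s, hs, h⟩
    · have hr : FreeGroup.IsReduced ((x, true) :: m.toWord) :=
        isReduced_suffix FreeGroup.isReduced_toWord h
      have : (FreeGroup.of x * m).toWord = (x, true) :: m.toWord := by
        rw [FreeGroup.toWord_mul, FreeGroup.toWord_of, List.singleton_append,
          (hr.red_iff_eq).1 FreeGroup.reduce.red]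
      rw [this]
      exact ⟨h, by simp⟩
    · have hm' : FreeGroup.of x * m = FreeGroup.mk s := by
        conv_lhs => rw [← FreeGroup.mk_toWord (x := m), hs]
        rw [show FreeGroup.mk ((x, false) :: s) = (FreeGroup.of x)⁻¹ * FreeGroup.mk s from
          (FreeGroup.mul_mk (L₁ := [(x, false)]) (L₂ := s)).symm, mul_inv_cancel_left]
      have hsr : FreeGroup.IsReduced s :=
        isReduced_suffix (FreeGroup.isReduced_toWord (x := m)) (hs ▸ List.suffix_cons _ s)
      rw [hm', toWord_mk_of_isReduced hsr]
      refine ⟨(hs ▸ List.suffix_cons _ s).trans h, fun he => ?_⟩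
      have := h.length_le
      rw [hs, List.length_cons, he] at this
      omega
  · simp only [shift, if_true]
    rcases hm with h | ⟨s, hs, h⟩
    · refine ⟨(List.suffix_cons _ _).trans h, fun he => ?_⟩
      have := h.length_le
      rw [List.length_cons, he] at this
      omega
    · exact ⟨h, by rw [hs]; simp⟩

/-- The suffix closure of an element. -/
def suf (n : FreeGroup X) : Finset (FreeGroup X) := (n.toWord.tails.map FreeGroup.mk).toFinset

theorem mem_suf {n m : FreeGroup X} : m ∈ suf n ↔ m.toWord <:+ n.toWord := by
  simp only [suf, List.mem_toFinset, List.mem_map, List.mem_tails]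
  constructor
  · rintro ⟨L, hL, rfl⟩
    rwa [toWord_mk_of_isReduced (isReduced_suffix FreeGroup.isReduced_toWord hL)]
  · exact fun h => ⟨m.toWord, h, FreeGroup.mk_toWord⟩

end Vale.Agent.P201
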